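import Vale.Agent.P011.H439.Near
import Vale.Agent.P011.H223.Gen
import Vale.Agent.P011.H275.Cmp
import Vale.Agent.P011.H415.Red
import Vale.Agent.P011.H27.Odd.LemL2

/-!
**Local constancy.** The induction on the degree.
-/

open Matrix Polynomial Filter Topology
open Vale.Agent.P011.H95.Odd

set_option linter.unusedSectionVars false

namespace Vale.Agent.P011.H439

section main

variable {K D E : Type*} [Field K] [StarRing K] [DivisionRing D] [StarRing D] [Algebra K D]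
  [StarModule K D] [TopologicalSpace K] [IsTopologicalRing K] [ContinuousStar K]
  [TopologicalSpace D] [IsTopologicalDivisionRing D] [ContinuousStar D] [T1Space D]
  [AddCommGroup E] {m b : ℕ} {W : Set D} {ch : D → E}

/-- The first family of moves near a base. -/
theorem h1_near (hcont : Continuous (algebraMap K D)) (hc : Chr K W ch) {c0 : Fin m → K}
    {r0 : Sq D b} {w0 : Col D b} (h : Dm W c0 r0 0 w0) :
    ∀ᶠ x : ((Fin m → K) × Sq D b) × Col D b × Col D b × K in 𝓝 ((c0, r0), 0, w0, 0),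
      aeval x.1.2 (Pc x.1.1) = 0 →
      FF ch x.1.1 x.1.2 (x.2.1 + x.2.2.2 • x.2.2.1)
        (x.2.2.1 + star x.2.2.2 • (x.1.2ᴴ * x.2.1)) = FF ch x.1.1 x.1.2 x.2.1 x.2.2.1 := by
  have : ContinuousSMul K D := ⟨by
    have : (fun p : K × D => p.1 • p.2) = fun p : K × D => algebraMap K D p.1 * p.2 := by
      funext p; exact Algebra.smul_def _ _
    rw [this]
    exact (hcont.comp continuous_fst).mul continuous_snd⟩
  have hn := dm_near hcont hc h
  have t1 : Tendsto (fun x : ((Fin m → K) × Sq D b) × Col D b × Col D b × K =>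
      (x.1, x.2.1, x.2.2.1)) (𝓝 ((c0, r0), 0, w0, 0)) (𝓝 ((c0, r0), 0, w0)) := by
    have : Continuous fun x : ((Fin m → K) × Sq D b) × Col D b × Col D b × K =>
      (x.1, x.2.1, x.2.2.1) := by fun_prop
    exact this.tendsto _
  have t2 : Tendsto (fun x : ((Fin m → K) × Sq D b) × Col D b × Col D b × K =>
      (x.1, x.2.1 + x.2.2.2 • x.2.2.1, x.2.2.1 + star x.2.2.2 • (x.1.2ᴴ * x.2.1)))
      (𝓝 ((c0, r0), 0, w0, 0)) (𝓝 ((c0, r0), 0, w0)) := by
    have : Continuous fun x : ((Fin m → K) × Sq D b) × Col D b × Col D b × K =>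
      (x.1, x.2.1 + x.2.2.2 • x.2.2.1, x.2.2.1 + star x.2.2.2 • (x.1.2ᴴ * x.2.1)) := by
      fun_prop
    have h2 := this.tendsto ((c0, r0), 0, w0, 0)
    simpa using h2
  filter_upwards [t1.eventually hn, t2.eventually hn] with x hx1 hx2 hx
  exact FF_move hc (hx1 hx) x.2.2.2 (hx2 hx)

/-- Unitary factors near a base. -/
theorem h3_near (hcont : Continuous (algebraMap K D)) (hc : Chr K W ch) {c0 : Fin m → K}
    {r0 : Sq D b} {w0 : Col D b} (h : Dm W c0 r0 0 w0) :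
    ∀ᶠ x : ((Fin m → K) × Sq D b) × Col D b × Col D b × D in 𝓝 ((c0, r0), 0, w0, 1),
      aeval x.1.2 (Pc x.1.1) = 0 → x.2.2.2 * star x.2.2.2 = 1 →
        FF ch x.1.1 x.1.2 (x.2.1.map (· * x.2.2.2)) x.2.2.1 =
          FF ch x.1.1 x.1.2 x.2.1 x.2.2.1 := by
  have hn := dm_near hcont hc h
  have t1 : Tendsto (fun x : ((Fin m → K) × Sq D b) × Col D b × Col D b × D =>
      (x.1, x.2.1, x.2.2.1)) (𝓝 ((c0, r0), 0, w0, 1)) (𝓝 ((c0, r0), 0, w0)) := by
    have : Continuous fun x : ((Fin m → K) × Sq D b) × Col D b × Col D b × D =>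
      (x.1, x.2.1, x.2.2.1) := by fun_prop
    exact this.tendsto _
  have t2 : Tendsto (fun x : ((Fin m → K) × Sq D b) × Col D b × Col D b × D => x.2.2.2)
      (𝓝 ((c0, r0), 0, w0, 1)) (𝓝 1) := by
    have : Continuous fun x : ((Fin m → K) × Sq D b) × Col D b × Col D b × D => x.2.2.2 := by
      fun_prop
    exact this.tendsto _
  filter_upwards [t1.eventually hn, t2.eventually hc.near] with x hx1 hx2 hx hu
  exact (FF_unit hc (hx1 hx) (hx2 hu)).2

/-- The second family of moves in degree one. -/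
theorem h2_near_one (hcont : Continuous (algebraMap K D)) (hc : Chr K W ch) {c0 : Fin 1 → K}
    {r0 : Sq D b} {w0 : Col D b} (h : Dm W c0 r0 0 w0) :
    ∀ᶠ x : ((Fin 1 → K) × Sq D b) × Col D b × Col D b × K in 𝓝 ((c0, r0), 0, w0, 0),
      aeval x.1.2 (Pc x.1.1) = 0 →
      FF ch x.1.1 x.1.2 (x.2.1 + x.2.2.2 • x.2.2.1)
        (x.2.2.1 + star x.2.2.2 • (x.1.2 * x.2.1)) = FF ch x.1.1 x.1.2 x.2.1 x.2.2.1 := by
  have : ContinuousSMul K D := ⟨by
    have : (fun p : K × D => p.1 • p.2) = fun p : K × D => algebraMap K D p.1 * p.2 := by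
      funext p; exact Algebra.smul_def _ _
    rw [this]
    exact (hcont.comp continuous_fst).mul continuous_snd⟩
  have hn := dm_near hcont hc h
  have t1 : Tendsto (fun x : ((Fin 1 → K) × Sq D b) × Col D b × Col D b × K =>
      (x.1, x.2.1, x.2.2.1)) (𝓝 ((c0, r0), 0, w0, 0)) (𝓝 ((c0, r0), 0, w0)) := by
    have : Continuous fun x : ((Fin 1 → K) × Sq D b) × Col D b × Col D b × K =>
      (x.1, x.2.1, x.2.2.1) := by fun_prop
    exact this.tendsto _
  have t2 : Tendsto (fun x : ((Fin 1 → K) × Sq D b) × Col D b × Col D b × K =>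
      (x.1, x.2.1 + x.2.2.2 • x.2.2.1, x.2.2.1 + star x.2.2.2 • (x.1.2 * x.2.1)))
      (𝓝 ((c0, r0), 0, w0, 0)) (𝓝 ((c0, r0), 0, w0)) := by
    have : Continuous fun x : ((Fin 1 → K) × Sq D b) × Col D b × Col D b × K =>
      (x.1, x.2.1 + x.2.2.2 • x.2.2.1, x.2.2.1 + star x.2.2.2 • (x.1.2 * x.2.1)) := by
      fun_prop
    have h2 := this.tendsto ((c0, r0), 0, w0, 0)
    simpa using h2
  filter_upwards [t1.eventually hn, t2.eventually hn] with x hx1 hx2 hx
  obtain ⟨⟨c, r⟩, w1, w2, ν⟩ := x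
  simp only at hx1 hx2 hx ⊢
  have hr : r = (-c 0) • (1 : Sq D b) := by
    rw [aeval_Pc] at hx
    simp only [pow_one, Fin.sum_univ_one, Fin.val_zero, pow_zero] at hx
    rw [neg_smul]
    exact eq_neg_of_add_eq_zero_left hx
  subst hr
  obtain ⟨d1, e1⟩ := FF_conj hc (hx1 hx)
  obtain ⟨d2, e2⟩ := FF_conj hc (hx2 hx)
  have hρ : ((star (-c 0)) • (1 : Sq D b))ᴴ = (-c 0) • (1 : Sq D b) := by
    rw [conj_smul_one, star_star]
  have key := FF_move hc d1 ν (by rw [hρ]; exact d2)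
  rw [hρ, e1, e2, neg_inj] at key
  exact key

/-- The statement of local constancy in degree `m`. -/
def LCm (K : Type*) {D E : Type*} [Field K] [StarRing K] [DivisionRing D] [StarRing D]
    [Algebra K D] [TopologicalSpace K] [TopologicalSpace D] [AddCommGroup E] (W : Set D)
    (ch : D → E) (m : ℕ) : Prop :=
  ∀ (b : ℕ) (c0 : Fin m → K) (r0 : Sq D b) (w0 : Col D b), IsCoprime (Pc c0) (Pc (sc c0)) →
    Dm W c0 r0 0 w0 →
    ∀ᶠ x : ((Fin m → K) × Sq D b) × Col D b × Col D b × Col D b × Col D b in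
      𝓝 ((c0, r0), 0, w0, 0, w0), aeval x.1.2 (Pc x.1.1) = 0 →
        FF ch x.1.1 x.1.2 x.2.1 x.2.2.1 = FF ch x.1.1 x.1.2 x.2.2.2.1 x.2.2.2.2

/-- Lemma L applied to a second family of moves. -/
theorem lc_of_moves [NonarchimedeanAddGroup D] (hcont : Continuous (algebraMap K D))
    (hspan : ∀ O ∈ 𝓝 (1 : D), (AddSubgroup.closure {x : D | ∃ u ∈ O, u * star u = 1 ∧
      x = u - 1} : Set D) ∈ 𝓝 (0 : D))
    (hK : ∀ O ∈ 𝓝 (0 : K), ∀ S : Finset K, ∃ ν ∈ O, ν ≠ 0 ∧ ν * star ν ∉ S)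
    (hc : Chr K W ch) {c0 : Fin m → K} {r0 : Sq D b} {w0 : Col D b} (h : Dm W c0 r0 0 w0)
    (α : (Fin m → K) × Sq D b → Sq D b) (hα : ContinuousAt α (c0, r0))
    (hu : IsUnit (α (c0, r0) - r0ᴴ))
    (H2 : ∀ᶠ x : ((Fin m → K) × Sq D b) × Col D b × Col D b × K in 𝓝 ((c0, r0), 0, w0, 0),
      aeval x.1.2 (Pc x.1.1) = 0 →
      FF ch x.1.1 x.1.2 (x.2.1 + x.2.2.2 • x.2.2.1)
        (x.2.2.1 + star x.2.2.2 • (α x.1 * x.2.1)) = FF ch x.1.1 x.1.2 x.2.1 x.2.2.1) :
    ∀ᶠ x : ((Fin m → K) × Sq D b) × Col D b × Col D b × Col D b × Col D b in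
      𝓝 ((c0, r0), 0, w0, 0, w0), aeval x.1.2 (Pc x.1.1) = 0 →
        FF ch x.1.1 x.1.2 x.2.1 x.2.2.1 = FF ch x.1.1 x.1.2 x.2.2.2.1 x.2.2.2.2 := by
  have hρ : ContinuousAt (fun x : (Fin m → K) × Sq D b => x.2ᴴ) (c0, r0) := by
    have : Continuous fun x : (Fin m → K) × Sq D b => x.2ᴴ := by fun_prop
    exact this.continuousAt
  refine Vale.Agent.P011.H27.Odd.lemL (m := m) hcont hspan hK (c0, r0)
    {π : (Fin m → K) × Sq D b | aeval π.2 (Pc π.1) = 0} (fun x => x.2ᴴ) α hρ hα w0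
    (fun π w1 w2 => FF ch π.1 π.2 w1 w2) (h1_near hcont hc h) H2 (h3_near hcont hc h) ?_
  intro c hcinj hcu
  refine Vale.Agent.P011.H223.gen (c0 := c0) (r := r0) (a := aa c0 r0 0 w0) ?_ h.cop h.au ?_ hu
    hcinj hcu
  · rw [aeval_conj, h.ann, conjTranspose_zero]
  · have := aa_syl h.ann h.cop 0 w0
    simpa using this

/-- **Degree one.** -/
theorem lc_one [NonarchimedeanAddGroup D] (hcont : Continuous (algebraMap K D))
    (hspan : ∀ O ∈ 𝓝 (1 : D), (AddSubgroup.closure {x : D | ∃ u ∈ O, u * star u = 1 ∧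
      x = u - 1} : Set D) ∈ 𝓝 (0 : D))
    (hK : ∀ O ∈ 𝓝 (0 : K), ∀ S : Finset K, ∃ ν ∈ O, ν ≠ 0 ∧ ν * star ν ∉ S)
    (hc : Chr K W ch) : LCm K W ch 1 := by
  intro b c0 r0 w0 hcop h
  have hr : r0 = (-c0 0) • (1 : Sq D b) := by
    have hx := h.ann
    rw [aeval_Pc] at hx
    simp only [pow_one, Fin.sum_univ_one, Fin.val_zero, pow_zero] at hx
    rw [neg_smul]
    exact eq_neg_of_add_eq_zero_left hx
  have hne : -c0 0 - star (-c0 0) ≠ 0 := by
    intro h0
    have h1 : star (c0 0) = c0 0 := by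
      rw [star_neg] at h0
      have := sub_eq_zero.mp h0
      exact (neg_inj.mp this).symm
    have h2 : sc c0 = c0 := by
      funext i
      rw [Subsingleton.elim i 0]
      exact h1
    rw [h2] at hcop
    have h3 : IsUnit (Pc c0) := isCoprime_self.mp hcop
    have h4 := Vale.Agent.P011.H415.Pc_natDegree c0
    have h5 : (Pc c0).natDegree = 1 := h4
    exact absurd (natDegree_eq_zero_of_isUnit h3) (by omega)
  refine lc_of_moves hcont hspan hK hc h (fun x => x.2) continuous_snd.continuousAt ?_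
    (h2_near_one hcont hc h)
  show IsUnit (r0 - r0ᴴ)
  rw [hr, conj_smul_one, ← sub_smul]
  refine ⟨⟨(-c0 0 - star (-c0 0)) • 1, (-c0 0 - star (-c0 0))⁻¹ • 1, ?_, ?_⟩, rfl⟩
  · rw [Matrix.smul_mul, Matrix.mul_smul, smul_smul, mul_inv_cancel₀ hne, one_smul,
      Matrix.mul_one]
  · rw [Matrix.smul_mul, Matrix.mul_smul, smul_smul, inv_mul_cancel₀ hne, one_smul,
      Matrix.mul_one]

end main

end Vale.Agent.P011.H439
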