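import Vale.Agent.P011.H439.Syl
import Vale.Agent.P011.H95.Odd.Blk2
import Vale.Agent.P011.H341.Odd.InvCont

/-!
**Local constancy, the states.** A state is `(c, r, w₁, w₂)`: a square matrix `r` over `D`
annihilated by the monic polynomial with coefficients `c`, and two columns. The two unitary
elements attached to it and their difference under a character.
-/

open Matrix Polynomial Filter Topology
open Vale.Agent.P011.H95.Odd

set_option linter.unusedSectionVars false

namespace Vale.Agent.P011.H439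

/-- Columns. -/
abbrev Col (D : Type*) (b : ℕ) := Matrix (Fin b) (Fin 1) D

/-- Square matrices. -/
abbrev Sq (D : Type*) (b : ℕ) := Matrix (Fin b) (Fin b) D

/-- A character on a relatively open group of unitary elements, trivial on scalars. -/
structure Chr (K : Type*) {D E : Type*} [Field K] [StarRing K] [DivisionRing D] [StarRing D]
    [Algebra K D] [TopologicalSpace D] [AddCommGroup E] (W : Set D) (ch : D → E) : Prop where
  unit : ∀ u ∈ W, u * star u = 1
  mul : ∀ u ∈ W, ∀ v ∈ W, u * v ∈ W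
  inv : ∀ u ∈ W, star u ∈ W
  map : ∀ u ∈ W, ∀ v ∈ W, ch (u * v) = ch u + ch v
  near : ∀ᶠ x in 𝓝 (1 : D), x * star x = 1 → x ∈ W
  scal : ∀ a : K, a * star a = 1 → algebraMap K D a ∈ W ∧ ch (algebraMap K D a) = 0

section defs

variable {K D E : Type*} [Field K] [StarRing K] [DivisionRing D] [StarRing D] [Algebra K D]
  [AddCommGroup E] {m b : ℕ}

/-- The matrix `a` with `a + aᴴ = w₁ w₁ᴴ`, `a r + (a r)ᴴ = w₂ w₂ᴴ`. -/
noncomputable def aa (c : Fin m → K) (r : Sq D b) (w1 w2 : Col D b) : Sq D b :=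
  syl (sc c) rᴴ (w2 * w2ᴴ - rᴴ * (w1 * w1ᴴ)) r

/-- The first unitary element. -/
noncomputable def u1 (c : Fin m → K) (r : Sq D b) (w1 w2 : Col D b) : D :=
  uu w1 (Ring.inverse (aa c r w1 w2)) 0 0

/-- The second unitary element. -/
noncomputable def u2 (c : Fin m → K) (r : Sq D b) (w1 w2 : Col D b) : D :=
  uu w2 (Ring.inverse r * Ring.inverse (aa c r w1 w2)) 0 0

/-- The difference of the two values. -/
noncomputable def FF (ch : D → E) (c : Fin m → K) (r : Sq D b) (w1 w2 : Col D b) : E :=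
  ch (u2 c r w1 w2) - ch (u1 c r w1 w2)

/-- The domain. -/
structure Dm (W : Set D) (c : Fin m → K) (r : Sq D b) (w1 w2 : Col D b) : Prop where
  ann : aeval r (Pc c) = 0
  cop : IsUnit (aeval r (Pc (sc c)))
  ru : IsUnit r
  au : IsUnit (aa c r w1 w2)
  m1 : u1 c r w1 w2 ∈ W
  m2 : u2 c r w1 w2 ∈ W

end defs

section alg

variable {K D E : Type*} [Field K] [StarRing K] [DivisionRing D] [StarRing D] [Algebra K D]
  [StarModule K D] {m b : ℕ}

theorem sc_sc (c : Fin m → K) : sc (sc c) = c := by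
  funext i; simp [sc]

theorem aeval_conj (c : Fin m → K) (r : Sq D b) :
    aeval rᴴ (Pc (sc c)) = (aeval r (Pc c))ᴴ := by
  rw [aeval_Pc, aeval_Pc]
  simp [conjTranspose_add, conjTranspose_pow, conjTranspose_sum, sc]

theorem aeval_conj' (c : Fin m → K) (r : Sq D b) :
    aeval rᴴ (Pc c) = (aeval r (Pc (sc c)))ᴴ := by
  rw [← aeval_conj, sc_sc]

theorem isUnit_conj {r : Sq D b} (h : IsUnit r) : IsUnit rᴴ := by
  obtain ⟨u, rfl⟩ := h
  exact ⟨⟨(u : Sq D b)ᴴ, ((u⁻¹ : (Sq D b)ˣ) : Sq D b)ᴴ, by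
    rw [← conjTranspose_mul, Units.inv_mul, conjTranspose_one], by
    rw [← conjTranspose_mul, Units.mul_inv, conjTranspose_one]⟩, rfl⟩

theorem inv2_of {a : Sq D b} (h : IsUnit a) : Inv2 a (Ring.inverse a) :=
  ⟨Ring.mul_inverse_cancel _ h, Ring.inverse_mul_cancel _ h⟩

theorem isUnit_of_inv2 {a ai : Sq D b} (h : Inv2 a ai) : IsUnit a :=
  ⟨⟨a, ai, h.mul, h.inv⟩, rfl⟩

theorem inv_eq {a ai : Sq D b} (h : Inv2 a ai) : Ring.inverse a = ai :=
  (inv2_of (isUnit_of_inv2 h)).unique h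

/-- No nonzero intertwiner between `r` and `rᴴ`. -/
theorem no_int {c : Fin m → K} {r : Sq D b} (hann : aeval r (Pc c) = 0)
    (hcop : IsUnit (aeval r (Pc (sc c)))) {x : Sq D b} (h : x * r = rᴴ * x) : x = 0 := by
  refine syl_zero (c := sc c) ?_ hcop h
  rw [aeval_conj, hann, conjTranspose_zero]

theorem aa_syl {c : Fin m → K} {r : Sq D b} (hann : aeval r (Pc c) = 0)
    (hcop : IsUnit (aeval r (Pc (sc c)))) (w1 w2 : Col D b) :
    aa c r w1 w2 * r - rᴴ * aa c r w1 w2 = w2 * w2ᴴ - rᴴ * (w1 * w1ᴴ) := by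
  refine syl_spec ?_ hcop _
  rw [aeval_conj, hann, conjTranspose_zero]

theorem aa_atB {c : Fin m → K} {r : Sq D b} (hann : aeval r (Pc c) = 0)
    (hcop : IsUnit (aeval r (Pc (sc c)))) (w1 w2 : Col D b) : AtB r w1 w2 (aa c r w1 w2) :=
  atB_of_syl (fun _ hx => no_int hann hcop hx) (aa_syl hann hcop w1 w2)

theorem aa_unique {c : Fin m → K} {r : Sq D b} (hann : aeval r (Pc c) = 0)
    (hcop : IsUnit (aeval r (Pc (sc c)))) {w1 w2 : Col D b} {a : Sq D b}
    (h : AtB r w1 w2 a) : a = aa c r w1 w2 :=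
  AtB.unique (fun _ hx => no_int hann hcop hx) h (aa_atB hann hcop w1 w2)

theorem mul00 (A B : Matrix (Fin 1) (Fin 1) D) : (A * B) 0 0 = A 0 0 * B 0 0 := by
  simp [Matrix.mul_apply]

theorem star00 (A : Matrix (Fin 1) (Fin 1) D) : Aᴴ 0 0 = star (A 0 0) := rfl

theorem eq00 {A B : Matrix (Fin 1) (Fin 1) D} (h : A 0 0 = B 0 0) : A = B := by
  ext i j
  rw [Subsingleton.elim i 0, Subsingleton.elim j 0, h]

theorem u1_unit {c : Fin m → K} {r : Sq D b} (hann : aeval r (Pc c) = 0)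
    (hcop : IsUnit (aeval r (Pc (sc c)))) {w1 w2 : Col D b} (ha : IsUnit (aa c r w1 w2)) :
    u1 c r w1 w2 * star (u1 c r w1 w2) = 1 := by
  have h := uu_mul_conj (aa_atB hann hcop w1 w2).one (inv2_of ha)
  have h1 := congrFun (congrFun h 0) 0
  rwa [mul00, star00] at h1

theorem u2_unit {c : Fin m → K} {r : Sq D b} (hann : aeval r (Pc c) = 0)
    (hcop : IsUnit (aeval r (Pc (sc c)))) (hr : IsUnit r) {w1 w2 : Col D b}
    (ha : IsUnit (aa c r w1 w2)) :
    u2 c r w1 w2 * star (u2 c r w1 w2) = 1 := by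
  have h := uu_mul_conj (aa_atB hann hcop w1 w2).two' ((inv2_of ha).mul' (inv2_of hr))
  have h1 := congrFun (congrFun h 0) 0
  rwa [mul00, star00] at h1

/-- The values of a state from any solution. -/
theorem u1_eq {c : Fin m → K} {r : Sq D b} (hann : aeval r (Pc c) = 0)
    (hcop : IsUnit (aeval r (Pc (sc c)))) {w1 w2 : Col D b} {a ai : Sq D b}
    (h : AtB r w1 w2 a) (hi : Inv2 a ai) : u1 c r w1 w2 = uu w1 ai 0 0 := by
  rw [u1, ← aa_unique hann hcop h, inv_eq hi]

theorem u2_eq {c : Fin m → K} {r ri : Sq D b} (hann : aeval r (Pc c) = 0)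
    (hcop : IsUnit (aeval r (Pc (sc c)))) {w1 w2 : Col D b} {a ai : Sq D b}
    (h : AtB r w1 w2 a) (hi : Inv2 a ai) (hr : Inv2 r ri) :
    u2 c r w1 w2 = uu w2 (ri * ai) 0 0 := by
  rw [u2, ← aa_unique hann hcop h, inv_eq hi, inv_eq hr]

end alg

end Vale.Agent.P011.H439
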