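import Mathlib

/-!
Sylvester equations over matrix rings, in terms of a polynomial annihilating one of the two
coefficients.
-/

open Matrix Polynomial Filter Topology

namespace Vale.Agent.P011.H439

/-- The monic polynomial with given lower coefficients. -/
noncomputable def Pc {K : Type*} [Field K] {m : ℕ} (c : Fin m → K) : K[X] :=
  X ^ m + ∑ i : Fin m, C (c i) * X ^ (i : ℕ)

/-- The conjugate coefficients. -/
def sc {K : Type*} [Star K] {m : ℕ} (c : Fin m → K) : Fin m → K := fun i => star (c i)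

section alg

variable {K D : Type*} [Field K] [Ring D] [Algebra K D]
  {ι κ : Type*} [Fintype ι] [Fintype κ] [DecidableEq ι] [DecidableEq κ]

/-- The Sylvester sum. -/
noncomputable def sylT (m : ℕ) (ρ : Matrix ι ι D) (Z : Matrix ι κ D) (t : Matrix κ κ D) :
    Matrix ι κ D := ∑ j ∈ Finset.range m, ρ ^ (m - 1 - j) * Z * t ^ j

omit [DecidableEq ι] [DecidableEq κ] in
theorem sylT_eq [DecidableEq ι] [DecidableEq κ] (m : ℕ) (ρ : Matrix ι ι D) (Z : Matrix ι κ D)
    (t : Matrix κ κ D) :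
    sylT m ρ Z t * t - ρ * sylT m ρ Z t = Z * t ^ m - ρ ^ m * Z := by
  induction m with
  | zero => simp [sylT]
  | succ m ih =>
    have h : sylT (m + 1) ρ Z t = ρ * sylT m ρ Z t + Z * t ^ m := by
      rw [sylT, Finset.sum_range_succ, sylT, Matrix.mul_sum]
      congr 1
      · refine Finset.sum_congr rfl fun j hj => ?_
        have hj' : m + 1 - 1 - j = (m - 1 - j) + 1 := by
          have := Finset.mem_range.mp hj
          omega
        rw [hj', pow_succ', Matrix.mul_assoc, Matrix.mul_assoc, Matrix.mul_assoc]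
      · simp
    have h2 : sylT (m + 1) ρ Z t * t - ρ * sylT (m + 1) ρ Z t =
        ρ * (sylT m ρ Z t * t - ρ * sylT m ρ Z t) + Z * t ^ (m + 1) - ρ * Z * t ^ m := by
      rw [h]
      simp only [Matrix.add_mul, Matrix.mul_add, Matrix.mul_sub, Matrix.mul_assoc, pow_succ]
      abel
    rw [h2, ih, Matrix.mul_sub, pow_succ' ρ]
    simp only [Matrix.mul_assoc]
    abel

/-- The Sylvester sum of a monic polynomial. -/
noncomputable def sylP {m : ℕ} (c : Fin m → K) (ρ : Matrix ι ι D) (Z : Matrix ι κ D)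
    (t : Matrix κ κ D) : Matrix ι κ D :=
  sylT m ρ Z t + ∑ i : Fin m, c i • sylT (i : ℕ) ρ Z t

theorem aeval_Pc {m : ℕ} (c : Fin m → K) {A : Type*} [Ring A] [Algebra K A] (x : A) :
    aeval x (Pc c) = x ^ m + ∑ i : Fin m, c i • x ^ (i : ℕ) := by
  simp [Pc, Algebra.smul_def]

theorem sylP_eq {m : ℕ} (c : Fin m → K) (ρ : Matrix ι ι D) (Z : Matrix ι κ D)
    (t : Matrix κ κ D) :
    sylP c ρ Z t * t - ρ * sylP c ρ Z t = Z * aeval t (Pc c) - aeval ρ (Pc c) * Z := by
  rw [aeval_Pc, aeval_Pc, sylP, Matrix.add_mul, Matrix.mul_add, Matrix.mul_add, Matrix.add_mul,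
    Matrix.sum_mul, Matrix.mul_sum, Matrix.mul_sum, Matrix.sum_mul]
  have h := sylT_eq m ρ Z t
  have h2 : ∑ i : Fin m, (c i • sylT (i : ℕ) ρ Z t) * t -
      ∑ i : Fin m, ρ * (c i • sylT (i : ℕ) ρ Z t) =
      ∑ i : Fin m, Z * c i • t ^ (i : ℕ) - ∑ i : Fin m, (c i • ρ ^ (i : ℕ)) * Z := by
    rw [← Finset.sum_sub_distrib, ← Finset.sum_sub_distrib]
    refine Finset.sum_congr rfl fun i _ => ?_
    rw [Matrix.smul_mul, Matrix.mul_smul, ← smul_sub, sylT_eq, smul_sub, Matrix.mul_smul,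
      Matrix.smul_mul]
  rw [add_sub_add_comm, h, h2]
  abel

/-- The solution of the Sylvester equation. -/
noncomputable def syl {m : ℕ} (c : Fin m → K) (ρ : Matrix ι ι D) (Z : Matrix ι κ D)
    (t : Matrix κ κ D) : Matrix ι κ D := sylP c ρ Z t * Ring.inverse (aeval t (Pc c))

theorem syl_spec {m : ℕ} {c : Fin m → K} {ρ : Matrix ι ι D} {t : Matrix κ κ D}
    (hρ : aeval ρ (Pc c) = 0) (ht : IsUnit (aeval t (Pc c))) (Z : Matrix ι κ D) :
    syl c ρ Z t * t - ρ * syl c ρ Z t = Z := by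
  have hcomm : Ring.inverse (aeval t (Pc c)) * t = t * Ring.inverse (aeval t (Pc c)) := by
    have h1 : aeval t (Pc c) * t = t * aeval t (Pc c) := by
      have := congrArg (aeval t) (mul_comm (Pc c) X)
      rwa [map_mul, map_mul, aeval_X] at this
    have ha := Ring.mul_inverse_cancel _ ht
    have hb := Ring.inverse_mul_cancel _ ht
    calc Ring.inverse (aeval t (Pc c)) * t
        = Ring.inverse (aeval t (Pc c)) * t * (aeval t (Pc c) * Ring.inverse (aeval t (Pc c))) := by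
          rw [ha, mul_one]
      _ = Ring.inverse (aeval t (Pc c)) * (t * aeval t (Pc c)) * Ring.inverse (aeval t (Pc c)) := by
          simp only [mul_assoc]
      _ = (Ring.inverse (aeval t (Pc c)) * aeval t (Pc c)) * t * Ring.inverse (aeval t (Pc c)) := by
          rw [← h1]; simp only [mul_assoc]
      _ = t * Ring.inverse (aeval t (Pc c)) := by rw [hb, one_mul]
  have hinv : aeval t (Pc c) * Ring.inverse (aeval t (Pc c)) = 1 := Ring.mul_inverse_cancel _ ht
  rw [syl, Matrix.mul_assoc, hcomm, ← Matrix.mul_assoc, ← Matrix.mul_assoc, ← Matrix.sub_mul,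
    sylP_eq, hρ, Matrix.zero_mul, sub_zero, Matrix.mul_assoc, hinv, Matrix.mul_one]

theorem intertwine {ρ : Matrix ι ι D} {t : Matrix κ κ D} {Y : Matrix ι κ D} (h : Y * t = ρ * Y)
    (f : K[X]) : Y * aeval t f = aeval ρ f * Y := by
  induction f using Polynomial.induction_on with
  | C a => simp [Algebra.algebraMap_eq_smul_one]
  | add p q hp hq => rw [map_add, map_add, Matrix.mul_add, Matrix.add_mul, hp, hq]
  | monomial n a ih =>
    have e1 : aeval t (C a * X ^ (n + 1) : K[X]) = aeval t (C a * X ^ n : K[X]) * t := by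
      rw [pow_succ, ← mul_assoc, map_mul (aeval t) (C a * X ^ n) X, aeval_X]
    have e2 : aeval ρ (C a * X ^ (n + 1) : K[X]) = aeval ρ (C a * X ^ n : K[X]) * ρ := by
      rw [pow_succ, ← mul_assoc, map_mul (aeval ρ) (C a * X ^ n) X, aeval_X]
    rw [e1, e2, ← Matrix.mul_assoc, ih, Matrix.mul_assoc, h, ← Matrix.mul_assoc]

theorem syl_zero {m : ℕ} {c : Fin m → K} {ρ : Matrix ι ι D} {t : Matrix κ κ D}
    (hρ : aeval ρ (Pc c) = 0) (ht : IsUnit (aeval t (Pc c))) {Y : Matrix ι κ D}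
    (h : Y * t = ρ * Y) : Y = 0 := by
  have h1 := intertwine h (Pc c)
  rw [hρ, Matrix.zero_mul] at h1
  have hinv : aeval t (Pc c) * Ring.inverse (aeval t (Pc c)) = 1 := Ring.mul_inverse_cancel _ ht
  calc Y = Y * (aeval t (Pc c) * Ring.inverse (aeval t (Pc c))) := by rw [hinv, Matrix.mul_one]
    _ = 0 := by rw [← Matrix.mul_assoc, h1, Matrix.zero_mul]

theorem syl_unique {m : ℕ} {c : Fin m → K} {ρ : Matrix ι ι D} {t : Matrix κ κ D}
    (hρ : aeval ρ (Pc c) = 0) (ht : IsUnit (aeval t (Pc c))) {Z Y : Matrix ι κ D}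
    (h : Y * t - ρ * Y = Z) : Y = syl c ρ Z t := by
  have h1 := syl_spec hρ ht Z
  have h2 : (Y - syl c ρ Z t) * t = ρ * (Y - syl c ρ Z t) := by
    rw [Matrix.sub_mul, Matrix.mul_sub, sub_eq_sub_iff_sub_eq_sub, h, h1]
  exact sub_eq_zero.mp (syl_zero hρ ht h2)

end alg

end Vale.Agent.P011.H439
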