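import Vale.Agent.P011.H439.LC
import Vale.Agent.P011.H95.Odd.Exch

/-!
**Local constancy.** The exchange with a fixed companion matrix near a base.
-/

open Matrix Polynomial Filter Topology
open Vale.Agent.P011.H95.Odd (exq exv exw1 exw2 exchange eD Inv2)

set_option linter.unusedSectionVars false

namespace Vale.Agent.P011.H439

section defs

variable {K D E : Type*} [Field K] [StarRing K] [DivisionRing D] [StarRing D] [Algebra K D]
  {m b j : ℕ}

/-- The multiplier. -/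
noncomputable def chi (c' : Fin j → K) (r : Sq D b) : Sq D b :=
  aeval rᴴ (Pc (sc c')) * Ring.inverse (aeval rᴴ (Pc c'))

/-- The companion matrix over `D`. -/
noncomputable def tD (c' : Fin (j + 1) → K) : Sq D (j + 1) :=
  (Vale.Agent.P011.H275.Cmp.cmp c').map (algebraMap K D)

/-- The mixed block. -/
noncomputable def qm (c' : Fin (j + 1) → K) (r : Sq D b) (v2 : Col D b) :
    Matrix (Fin b) (Fin (j + 1)) D :=
  Matrix.of fun i k => -(rᴴ ^ (k : ℕ) * (Ring.inverse (aeval rᴴ (Pc c')) * v2)) i 0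

end defs

section exch

variable {K D E : Type*} [Field K] [StarRing K] [DivisionRing D] [StarRing D] [Algebra K D]
  [StarModule K D] [TopologicalSpace D]
  [AddCommGroup E] {m b j : ℕ} {W : Set D} {ch : D → E}

theorem exch (hc : Chr K W ch) {c : Fin m → K} {r : Sq D b} {v1 v2 : Col D b}
    {c' : Fin (j + 1) → K} (hcop : IsCoprime (Pc c') (Pc (sc c')))
    (hu : IsUnit (aeval rᴴ (Pc c'))) (hv : Dm W c r v1 v2)
    (hv' : Dm W c r v1 (chi c' r * v2)) :
    Dm W c' (tD c' : Sq D (j + 1)) ((qm c' r v2)ᴴ * Ring.inverse (aa c r v1 v2) * v1)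
        (eD K D j + (qm c' r v2)ᴴ * Ring.inverse (aa c r v1 v2) * v2) ∧
      FF ch c r v1 (chi c' r * v2) = FF ch c r v1 v2 +
        FF ch c' (tD c' : Sq D (j + 1)) ((qm c' r v2)ᴴ * Ring.inverse (aa c r v1 v2) * v1)
          (eD K D j + (qm c' r v2)ᴴ * Ring.inverse (aa c r v1 v2) * v2) := by
  have e : chi c' r * v2 = exv c' r v2 := Matrix.mul_assoc _ _ _
  rw [e] at hv' ⊢
  exact exchange hc hv hv' hu hcop

end exch

section main

variable {K D E : Type*} [Field K] [StarRing K] [DivisionRing D] [StarRing D] [Algebra K D]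
  [StarModule K D] [TopologicalSpace K] [IsTopologicalDivisionRing K] [ContinuousStar K]
  [T1Space K] [TopologicalSpace D] [IsTopologicalDivisionRing D] [ContinuousStar D] [T1Space D]
  [AddCommGroup E] {m b j : ℕ} {W : Set D} {ch : D → E}

theorem cont_tD (hcont : Continuous (algebraMap K D)) :
    Continuous fun c' : Fin (j + 1) → K => (tD c' : Sq D (j + 1)) := by
  refine continuous_matrix fun i k => ?_
  show Continuous fun c' : Fin (j + 1) → K =>
    algebraMap K D (Vale.Agent.P011.H275.Cmp.cmp c' i k)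
  refine hcont.comp ?_
  unfold Vale.Agent.P011.H275.Cmp.cmp
  split_ifs
  · fun_prop
  · fun_prop
  · fun_prop

theorem chi_base {c0 : Fin m → K} {r0 : Sq D b} {w0 : Col D b} (h : Dm W c0 r0 0 w0)
    {g0 : Fin j → K} (hu : IsUnit (aeval r0ᴴ (Pc g0))) (hu' : IsUnit (aeval r0ᴴ (Pc (sc g0)))) :
    Dm W c0 r0 0 (chi g0 r0 * w0) := by
  have hcomm : ∀ f : K[X], aeval r0ᴴ f * r0ᴴ = r0ᴴ * aeval r0ᴴ f := by
    intro f
    have := congrArg (aeval r0ᴴ) (mul_comm f X)
    rwa [map_mul, map_mul, aeval_X] at this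
  have hchiu : IsUnit (chi g0 r0) := by
    unfold chi
    exact hu'.mul (isUnit_of_inv2 (inv2_of hu).symm)
  have hchic : chi g0 r0 * r0ᴴ = r0ᴴ * chi g0 r0 := by
    unfold chi
    have h1 := (inv2_of hu)
    have h2 : Ring.inverse (aeval r0ᴴ (Pc g0)) * r0ᴴ =
        r0ᴴ * Ring.inverse (aeval r0ᴴ (Pc g0)) := by
      have e : Ring.inverse (aeval r0ᴴ (Pc g0)) * (aeval r0ᴴ (Pc g0) * r0ᴴ) *
          Ring.inverse (aeval r0ᴴ (Pc g0)) = Ring.inverse (aeval r0ᴴ (Pc g0)) *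
          (r0ᴴ * aeval r0ᴴ (Pc g0)) * Ring.inverse (aeval r0ᴴ (Pc g0)) := by
        rw [hcomm (Pc g0)]
      rw [h1.cancel_left', Matrix.mul_assoc, Matrix.mul_assoc, h1.mul, Matrix.mul_one] at e
      exact e.symm
    rw [Matrix.mul_assoc, h2, ← Matrix.mul_assoc, hcomm, Matrix.mul_assoc]
  have hb := (Dm.mul_left (ch := fun _ => (0 : ℤ)) h hchiu hchic).1
  rwa [Matrix.mul_zero] at hb

section

variable {c0 : Fin m → K} {r0 : Sq D b} {w0 : Col D b} {g : (Fin m → K) → Fin (j + 1) → K}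

theorem cont_g (hg : ContinuousAt g c0) :
    ContinuousAt (fun x : ((Fin m → K) × Sq D b) × Col D b × Col D b => g x.1.1)
      ((c0, r0), 0, w0) :=
  ContinuousAt.comp (f := fun x : ((Fin m → K) × Sq D b) × Col D b × Col D b => x.1.1)
    hg (by fun_prop)

theorem cont_ginv (hcont : Continuous (algebraMap K D)) (hg : ContinuousAt g c0)
    (hu : IsUnit (aeval r0ᴴ (Pc (g c0)))) :
    ContinuousAt (fun x : ((Fin m → K) × Sq D b) × Col D b × Col D b =>
      Ring.inverse (aeval x.1.2ᴴ (Pc (g x.1.1)))) ((c0, r0), 0, w0) := by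
  have crH : ContinuousAt (fun x : ((Fin m → K) × Sq D b) × Col D b × Col D b => x.1.2ᴴ)
      ((c0, r0), 0, w0) := by fun_prop
  exact cont_inv (cont_aeval hcont crH (cont_g hg)) hu

theorem cont_chi (hcont : Continuous (algebraMap K D)) (hg : ContinuousAt g c0)
    (hu : IsUnit (aeval r0ᴴ (Pc (g c0)))) :
    ContinuousAt (fun x : ((Fin m → K) × Sq D b) × Col D b × Col D b =>
      chi (g x.1.1) x.1.2) ((c0, r0), 0, w0) := by
  have crH : ContinuousAt (fun x : ((Fin m → K) × Sq D b) × Col D b × Col D b => x.1.2ᴴ)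
      ((c0, r0), 0, w0) := by fun_prop
  unfold chi
  refine Vale.Agent.P011.H341.Odd.cmul (cont_aeval hcont crH ?_) (cont_ginv hcont hg hu)
  exact ContinuousAt.comp (f := fun x : ((Fin m → K) × Sq D b) × Col D b × Col D b => g x.1.1)
    cont_sc.continuousAt (cont_g hg)

theorem cont_qmH (hcont : Continuous (algebraMap K D)) (hg : ContinuousAt g c0)
    (hu : IsUnit (aeval r0ᴴ (Pc (g c0)))) :
    ContinuousAt (fun x : ((Fin m → K) × Sq D b) × Col D b × Col D b =>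
      (qm (g x.1.1) x.1.2 x.2.2)ᴴ) ((c0, r0), 0, w0) := by
  have crH : ContinuousAt (fun x : ((Fin m → K) × Sq D b) × Col D b × Col D b => x.1.2ᴴ)
      ((c0, r0), 0, w0) := by fun_prop
  have cw : ContinuousAt (fun x : ((Fin m → K) × Sq D b) × Col D b × Col D b => x.2.2)
      ((c0, r0), 0, w0) := by fun_prop
  have cq : ContinuousAt (fun x : ((Fin m → K) × Sq D b) × Col D b × Col D b =>
      qm (g x.1.1) x.1.2 x.2.2) ((c0, r0), 0, w0) := by
    unfold qm
    refine continuousAt_pi.mpr fun i => continuousAt_pi.mpr fun k => ?_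
    have e00 : Continuous fun M : Col D b => -M i 0 := by fun_prop
    have := Vale.Agent.P011.H341.Odd.cmul (crH.pow (k : ℕ))
      (Vale.Agent.P011.H341.Odd.cmul (cont_ginv hcont hg hu) cw)
    exact ContinuousAt.comp (g := fun M : Col D b => -M i 0) e00.continuousAt this
  have : Continuous fun M : Matrix (Fin b) (Fin (j + 1)) D => Mᴴ := by fun_prop
  exact ContinuousAt.comp (g := fun M : Matrix (Fin b) (Fin (j + 1)) D => Mᴴ)
    this.continuousAt cq

theorem cont_aai (hcont : Continuous (algebraMap K D)) (h : Dm W c0 r0 0 w0) :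
    ContinuousAt (fun x : ((Fin m → K) × Sq D b) × Col D b × Col D b =>
      Ring.inverse (aa x.1.1 x.1.2 x.2.1 x.2.2)) ((c0, r0), 0, w0) :=
  cont_inv (cont_aa hcont h.cop 0 w0) h.au

theorem tend_one (hcont : Continuous (algebraMap K D)) (hg : ContinuousAt g c0)
    (hu : IsUnit (aeval r0ᴴ (Pc (g c0)))) (h : Dm W c0 r0 0 w0) :
    Tendsto (fun x : ((Fin m → K) × Sq D b) × Col D b × Col D b =>
      (qm (g x.1.1) x.1.2 x.2.2)ᴴ * Ring.inverse (aa x.1.1 x.1.2 x.2.1 x.2.2) * x.2.1)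
      (𝓝 ((c0, r0), 0, w0)) (𝓝 0) := by
  have cw1 : ContinuousAt (fun x : ((Fin m → K) × Sq D b) × Col D b × Col D b => x.2.1)
      ((c0, r0), 0, w0) := by fun_prop
  have t1 := (Vale.Agent.P011.H341.Odd.cmul (Vale.Agent.P011.H341.Odd.cmul
    (cont_qmH (w0 := w0) hcont hg hu) (cont_aai hcont h)) cw1).tendsto
  rwa [Matrix.mul_zero] at t1

theorem tend_two (hcont : Continuous (algebraMap K D)) (hg : ContinuousAt g c0)
    (hu : IsUnit (aeval r0ᴴ (Pc (g c0)))) (h : Dm W c0 r0 0 w0) :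
    Tendsto (fun x : ((Fin m → K) × Sq D b) × Col D b × Col D b =>
      eD K D j + (qm (g x.1.1) x.1.2 x.2.2)ᴴ * Ring.inverse (aa x.1.1 x.1.2 x.2.1 x.2.2) * x.2.2)
      (𝓝 ((c0, r0), 0, w0))
      (𝓝 (eD K D j + (qm (g c0) r0 w0)ᴴ * Ring.inverse (aa c0 r0 0 w0) * w0)) := by
  have cw : ContinuousAt (fun x : ((Fin m → K) × Sq D b) × Col D b × Col D b => x.2.2)
      ((c0, r0), 0, w0) := by fun_prop
  exact ((continuousAt_const (y := eD K D j)).add (Vale.Agent.P011.H341.Odd.cmul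
    (Vale.Agent.P011.H341.Odd.cmul (cont_qmH (w0 := w0) hcont hg hu) (cont_aai hcont h))
      cw)).tendsto

theorem tend_t (hcont : Continuous (algebraMap K D)) (hg : ContinuousAt g c0) :
    Tendsto (fun x : ((Fin m → K) × Sq D b) × Col D b × Col D b =>
      (tD (g x.1.1) : Sq D (j + 1))) (𝓝 ((c0, r0), 0, w0)) (𝓝 (tD (g c0))) :=
  (ContinuousAt.comp (f := fun x : ((Fin m → K) × Sq D b) × Col D b × Col D b => g x.1.1)
    (cont_tD hcont).continuousAt (cont_g hg)).tendsto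

/-- The change of the state in the exchange. -/
theorem tend_state (hcont : Continuous (algebraMap K D)) (hg : ContinuousAt g c0)
    (hu : IsUnit (aeval r0ᴴ (Pc (g c0)))) (h : Dm W c0 r0 0 w0) {w0' : Col D (j + 1)}
    (hw : eD K D j + (qm (g c0) r0 w0)ᴴ * Ring.inverse (aa c0 r0 0 w0) * w0 = w0') :
    Tendsto (fun x : ((Fin m → K) × Sq D b) × Col D b × Col D b =>
      ((g x.1.1, (tD (g x.1.1) : Sq D (j + 1))),
        (qm (g x.1.1) x.1.2 x.2.2)ᴴ * Ring.inverse (aa x.1.1 x.1.2 x.2.1 x.2.2) * x.2.1,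
        eD K D j + (qm (g x.1.1) x.1.2 x.2.2)ᴴ * Ring.inverse (aa x.1.1 x.1.2 x.2.1 x.2.2) * x.2.2,
        (0 : Col D (j + 1)), w0'))
      (𝓝 ((c0, r0), 0, w0)) (𝓝 ((g c0, tD (g c0)), 0, w0', 0, w0')) := by
  have t1 := tend_one hcont hg hu h
  have t2 := tend_two hcont hg hu h
  have t3 := tend_t (r0 := r0) (w0 := w0) hcont hg
  have t4 := (cont_g (r0 := r0) (w0 := w0) hg).tendsto
  rw [hw] at t2
  refine Tendsto.prodMk_nhds (Tendsto.prodMk_nhds t4 t3) ?_
  refine Tendsto.prodMk_nhds t1 ?_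
  refine Tendsto.prodMk_nhds t2 ?_
  exact Tendsto.prodMk_nhds tendsto_const_nhds tendsto_const_nhds

end

section

variable {c0 : Fin m → K} {r0 : Sq D b} {w0 : Col D b} {g : (Fin m → K) → Fin (j + 1) → K}

theorem near_chi (hcont : Continuous (algebraMap K D)) (hc : Chr K W ch)
    (h : Dm W c0 r0 0 w0) (hg : ContinuousAt g c0)
    (hu : IsUnit (aeval r0ᴴ (Pc (g c0)))) (hu' : IsUnit (aeval r0ᴴ (Pc (sc (g c0))))) :
    ∀ᶠ x : ((Fin m → K) × Sq D b) × Col D b × Col D b in 𝓝 ((c0, r0), 0, w0),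
      aeval x.1.2 (Pc x.1.1) = 0 →
        Dm W x.1.1 x.1.2 x.2.1 (chi (g x.1.1) x.1.2 * x.2.2) := by
  have cx : ContinuousAt (fun x : ((Fin m → K) × Sq D b) × Col D b × Col D b => x.1)
      ((c0, r0), 0, w0) := by fun_prop
  have cw : ContinuousAt (fun x : ((Fin m → K) × Sq D b) × Col D b × Col D b => x.2.2)
      ((c0, r0), 0, w0) := by fun_prop
  have cw1 : ContinuousAt (fun x : ((Fin m → K) × Sq D b) × Col D b × Col D b => x.2.1)
      ((c0, r0), 0, w0) := by fun_prop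
  have T2 := (cx.prodMk (cw1.prodMk (Vale.Agent.P011.H341.Odd.cmul
    (cont_chi (w0 := w0) hcont hg hu) cw))).tendsto
  exact T2.eventually (dm_near hcont hc (chi_base h hu hu'))

theorem near_u (hcont : Continuous (algebraMap K D)) (hg : ContinuousAt g c0)
    (hu : IsUnit (aeval r0ᴴ (Pc (g c0)))) :
    ∀ᶠ x : ((Fin m → K) × Sq D b) × Col D b × Col D b in 𝓝 ((c0, r0), 0, w0),
      IsUnit (aeval x.1.2ᴴ (Pc (g x.1.1))) := by
  have crH : ContinuousAt (fun x : ((Fin m → K) × Sq D b) × Col D b × Col D b => x.1.2ᴴ)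
      ((c0, r0), 0, w0) := by fun_prop
  exact (cont_aeval hcont crH (cont_g hg)).eventually
    (Vale.Agent.P011.H341.Odd.inv_cont _ hu).1

theorem near_cop {P : (Fin m → K) → Prop} (h : ∀ᶠ c in 𝓝 c0, P c) :
    ∀ᶠ x : ((Fin m → K) × Sq D b) × Col D b × Col D b in 𝓝 ((c0, r0), 0, w0), P x.1.1 := by
  have : ContinuousAt (fun x : ((Fin m → K) × Sq D b) × Col D b × Col D b => x.1.1)
      ((c0, r0), 0, w0) := by fun_prop
  exact this.tendsto.eventually h

theorem near_lc (hcont : Continuous (algebraMap K D)) (hLC : LCm K W ch (j + 1))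
    (h : Dm W c0 r0 0 w0) (hg : ContinuousAt g c0)
    (hcop : IsCoprime (Pc (g c0)) (Pc (sc (g c0))))
    (hu : IsUnit (aeval r0ᴴ (Pc (g c0)))) {w0' : Col D (j + 1)}
    (hw : eD K D j + (qm (g c0) r0 w0)ᴴ * Ring.inverse (aa c0 r0 0 w0) * w0 = w0')
    (hb : Dm W (g c0) (tD (g c0) : Sq D (j + 1)) 0 w0') :
    ∀ᶠ x : ((Fin m → K) × Sq D b) × Col D b × Col D b in 𝓝 ((c0, r0), 0, w0),
      aeval (tD (g x.1.1) : Sq D (j + 1)) (Pc (g x.1.1)) = 0 →
      FF ch (g x.1.1) (tD (g x.1.1) : Sq D (j + 1))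
        ((qm (g x.1.1) x.1.2 x.2.2)ᴴ * Ring.inverse (aa x.1.1 x.1.2 x.2.1 x.2.2) * x.2.1)
        (eD K D j + (qm (g x.1.1) x.1.2 x.2.2)ᴴ * Ring.inverse (aa x.1.1 x.1.2 x.2.1 x.2.2) *
          x.2.2) = FF ch (g x.1.1) (tD (g x.1.1) : Sq D (j + 1)) 0 w0' :=
  (tend_state hcont hg hu h hw).eventually (hLC (j + 1) (g c0) (tD (g c0)) w0' hcop hb)

end

/-- **The exchange near a base.** -/
theorem ex_near (hcont : Continuous (algebraMap K D)) (hc : Chr K W ch)
    (hLC : LCm K W ch (j + 1)) {c0 : Fin m → K} {r0 : Sq D b} {w0 : Col D b}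
    (h : Dm W c0 r0 0 w0) (g : (Fin m → K) → Fin (j + 1) → K) (hg : ContinuousAt g c0)
    (hcop : ∀ᶠ c in 𝓝 c0, IsCoprime (Pc (g c)) (Pc (sc (g c))))
    (hu : IsUnit (aeval r0ᴴ (Pc (g c0)))) (hu' : IsUnit (aeval r0ᴴ (Pc (sc (g c0))))) :
    ∃ C : (Fin m → K) → E,
      ∀ᶠ x : ((Fin m → K) × Sq D b) × Col D b × Col D b in 𝓝 ((c0, r0), 0, w0),
        aeval x.1.2 (Pc x.1.1) = 0 →
          FF ch x.1.1 x.1.2 x.2.1 (chi (g x.1.1) x.1.2 * x.2.2) =
            FF ch x.1.1 x.1.2 x.2.1 x.2.2 + C x.1.1 := by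
  have hb := chi_base h hu hu'
  -- the base of the companion matrix
  have hex := (exch hc hcop.self_of_nhds hu h hb).1
  rw [Matrix.mul_zero] at hex
  obtain ⟨w0', hw0'⟩ : ∃ w, eD K D j + (qm (g c0) r0 w0)ᴴ * Ring.inverse (aa c0 r0 0 w0) * w0 = w :=
    ⟨_, rfl⟩
  rw [hw0'] at hex
  refine ⟨fun c => FF ch (g c) (tD (g c) : Sq D (j + 1)) 0 w0', ?_⟩
  have n1 := dm_near hcont hc h
  have n2 := near_chi hcont hc h hg hu hu'
  have n3 := near_lc hcont hLC h hg hcop.self_of_nhds hu hw0' hex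
  have n4 := near_cop (r0 := r0) (w0 := w0) hcop
  have n5 := near_u (w0 := w0) hcont hg hu
  filter_upwards [n1, n2, n3, n4, n5] with x n1 n2 n3 n4 n5 hx
  obtain ⟨d, e⟩ := exch hc n4 n5 (n1 hx) (n2 hx)
  rw [e, n3 d.ann]

end main

end Vale.Agent.P011.H439
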