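import Vale.Agent.P011.H439.Step

/-!
**Local constancy.** The second family of moves and the theorem.
-/

open Matrix Polynomial Filter Topology
open Vale.Agent.P011.H415 (uu vv red kap)

set_option linter.unusedSectionVars false

namespace Vale.Agent.P011.H439

variable {K D E : Type*} [Field K] [StarRing K] [DivisionRing D] [StarRing D] [Algebra K D]
  [StarModule K D] [TopologicalSpace K] [IsTopologicalDivisionRing K] [ContinuousStar K]
  [T1Space K] [TopologicalSpace D] [IsTopologicalDivisionRing D] [ContinuousStar D] [T1Space D]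
  [AddCommGroup E] {m b k : ℕ} {W : Set D} {ch : D → E}

/-- The matrix of the second family of moves. -/
noncomputable def alp (x0 : K) (π : (Fin m → K) × Sq D b) : Sq D b :=
  (kap x0 π.1 * star (kap x0 π.1))⁻¹ • π.2ᴴ

theorem cont_kap {x0 : K} {c0 : Fin m → K} {r0 : Sq D b} {Y : Type*} [TopologicalSpace Y]
    {y0 : Y} (hv : vv x0 c0 ≠ 0) (huv : uu x0 c0 ≠ vv x0 c0) :
    ContinuousAt (fun x : ((Fin m → K) × Sq D b) × Y => kap x0 x.1.1) ((c0, r0), y0) :=
  ContinuousAt.comp (g := fun c : Fin m → K => kap x0 c)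
    (f := fun x : ((Fin m → K) × Sq D b) × Y => x.1.1) (x := ((c0, r0), y0))
    (H415.cont_kap (c0 := c0) huv hv) (continuous_fst.comp continuous_fst).continuousAt

theorem cont_alp (hcont : Continuous (algebraMap K D)) {x0 : K} {c0 : Fin m → K} {r0 : Sq D b}
    (hu : uu x0 c0 ≠ 0) (hv : vv x0 c0 ≠ 0) (huv : uu x0 c0 ≠ vv x0 c0) :
    ContinuousAt (alp (D := D) (b := b) x0) (c0, r0) := by
  have := contSMul (D := D) hcont
  have c1 : ContinuousAt (fun π : (Fin m → K) × Sq D b => kap x0 π.1) (c0, r0) :=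
    ContinuousAt.comp (g := fun c : Fin m → K => kap x0 c)
      (f := fun π : (Fin m → K) × Sq D b => π.1) (x := (c0, r0))
      (H415.cont_kap (c0 := c0) huv hv) continuous_fst.continuousAt
  have hne : kap x0 c0 * star (kap x0 c0) ≠ 0 := by
    have := H415.kap_ne_zero huv hu hv
    exact mul_ne_zero this (by rwa [Ne, star_eq_zero])
  have c2 : ContinuousAt (fun π : (Fin m → K) × Sq D b => star (kap x0 π.1)) (c0, r0) :=
    ContinuousAt.comp (g := fun x : K => star x) continuous_star.continuousAt c1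
  have c3 : ContinuousAt (fun π : (Fin m → K) × Sq D b => π.2ᴴ) (c0, r0) := by fun_prop
  unfold alp
  exact ((c1.mul c2).inv₀ hne).smul c3

theorem dm_smul {c : Fin m → K} {r : Sq D b} {w0 : Col D b} (h : Dm W c r 0 w0) {κ : K}
    (hκ : κ ≠ 0) : Dm W c r 0 (κ • w0) := by
  have hg : IsUnit (κ • 1 : Sq D b) := by
    refine ⟨⟨κ • 1, κ⁻¹ • 1, ?_, ?_⟩, rfl⟩
    · rw [Matrix.smul_mul, Matrix.mul_smul, smul_smul, mul_inv_cancel₀ hκ, one_smul,
        Matrix.mul_one]
    · rw [Matrix.smul_mul, Matrix.mul_smul, smul_smul, inv_mul_cancel₀ hκ, one_smul,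
        Matrix.mul_one]
  have := (Dm.mul_left (ch := fun _ => (0 : ℤ)) h hg (by
    simp only [Matrix.mul_smul, Matrix.smul_mul, Matrix.mul_one, Matrix.one_mul])).1
  simpa only [Matrix.mul_zero, Matrix.smul_mul, Matrix.one_mul] using this

section

variable {c0 : Fin m → K} {r0 : Sq D b} {w0 : Col D b}

theorem t_one : Tendsto (fun x : ((Fin m → K) × Sq D b) × Col D b × Col D b × K =>
    (x.1, x.2.1, x.2.2.1)) (𝓝 ((c0, r0), 0, w0, 0)) (𝓝 ((c0, r0), 0, w0)) := by
  have : Continuous (fun x : ((Fin m → K) × Sq D b) × Col D b × Col D b × K =>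
    (x.1, x.2.1, x.2.2.1)) := by fun_prop
  exact this.tendsto _

theorem t_two (hcont : Continuous (algebraMap K D))
    {al : (Fin m → K) × Sq D b → Sq D b} (ha : ContinuousAt al (c0, r0)) :
    Tendsto (fun x : ((Fin m → K) × Sq D b) × Col D b × Col D b × K =>
      (x.1, x.2.1 + x.2.2.2 • x.2.2.1, x.2.2.1 + star x.2.2.2 • (al x.1 * x.2.1)))
      (𝓝 ((c0, r0), 0, w0, 0)) (𝓝 ((c0, r0), 0, w0)) := by
  have := contSMul (D := D) hcont
  have cx : ContinuousAt (fun x : ((Fin m → K) × Sq D b) × Col D b × Col D b × K => x.1)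
      ((c0, r0), 0, w0, 0) := by fun_prop
  have c1 : ContinuousAt (fun x : ((Fin m → K) × Sq D b) × Col D b × Col D b × K => x.2.1)
      ((c0, r0), 0, w0, 0) := by fun_prop
  have c2 : ContinuousAt (fun x : ((Fin m → K) × Sq D b) × Col D b × Col D b × K => x.2.2.1)
      ((c0, r0), 0, w0, 0) := by fun_prop
  have cν : ContinuousAt (fun x : ((Fin m → K) × Sq D b) × Col D b × Col D b × K => x.2.2.2)
      ((c0, r0), 0, w0, 0) := by fun_prop
  have cν' : ContinuousAt (fun x : ((Fin m → K) × Sq D b) × Col D b × Col D b × K =>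
      star x.2.2.2) ((c0, r0), 0, w0, 0) := by fun_prop
  have ca : ContinuousAt (fun x : ((Fin m → K) × Sq D b) × Col D b × Col D b × K =>
      al x.1) ((c0, r0), 0, w0, 0) :=
    ContinuousAt.comp (g := al)
      (f := fun x : ((Fin m → K) × Sq D b) × Col D b × Col D b × K => x.1) ha cx
  have h1 : Tendsto (fun x : ((Fin m → K) × Sq D b) × Col D b × Col D b × K =>
      x.2.1 + x.2.2.2 • x.2.2.1) (𝓝 ((c0, r0), 0, w0, 0)) (𝓝 0) := by
    have e : Tendsto (fun x : ((Fin m → K) × Sq D b) × Col D b × Col D b × K =>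
      x.2.1 + x.2.2.2 • x.2.2.1) (𝓝 ((c0, r0), 0, w0, 0)) (𝓝 ((0 : Col D b) + (0 : K) • w0)) :=
      (c1.add (cν.smul c2)).tendsto
    rwa [zero_smul, add_zero] at e
  have h2 : Tendsto (fun x : ((Fin m → K) × Sq D b) × Col D b × Col D b × K =>
      x.2.2.1 + star x.2.2.2 • (al x.1 * x.2.1)) (𝓝 ((c0, r0), 0, w0, 0)) (𝓝 w0) := by
    have e : Tendsto (fun x : ((Fin m → K) × Sq D b) × Col D b × Col D b × K =>
      x.2.2.1 + star x.2.2.2 • (al x.1 * x.2.1)) (𝓝 ((c0, r0), 0, w0, 0))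
      (𝓝 (w0 + star (0 : K) • (al (c0, r0) * (0 : Col D b)))) :=
      (c2.add (cν'.smul (H341.Odd.cmul ca c1))).tendsto
    rwa [star_zero, zero_smul, add_zero] at e
  exact cx.tendsto.prodMk_nhds (h1.prodMk_nhds h2)

theorem t_three (hcont : Continuous (algebraMap K D))
    {κ : (Fin m → K) → K} (hk : ContinuousAt κ c0) (hκ : κ c0 ≠ 0) :
    Tendsto (fun x : ((Fin m → K) × Sq D b) × Col D b × Col D b × K =>
      (x.1, x.2.1, κ x.1.1 • x.2.2.1, x.2.2.2 / κ x.1.1))
      (𝓝 ((c0, r0), 0, w0, 0)) (𝓝 ((c0, r0), 0, κ c0 • w0, 0)) := by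
  have := contSMul (D := D) hcont
  have cx : ContinuousAt (fun x : ((Fin m → K) × Sq D b) × Col D b × Col D b × K => x.1)
      ((c0, r0), 0, w0, 0) := by fun_prop
  have c1 : ContinuousAt (fun x : ((Fin m → K) × Sq D b) × Col D b × Col D b × K => x.2.1)
      ((c0, r0), 0, w0, 0) := by fun_prop
  have c2 : ContinuousAt (fun x : ((Fin m → K) × Sq D b) × Col D b × Col D b × K => x.2.2.1)
      ((c0, r0), 0, w0, 0) := by fun_prop
  have cν : ContinuousAt (fun x : ((Fin m → K) × Sq D b) × Col D b × Col D b × K => x.2.2.2)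
      ((c0, r0), 0, w0, 0) := by fun_prop
  have ck : ContinuousAt (fun x : ((Fin m → K) × Sq D b) × Col D b × Col D b × K =>
      κ x.1.1) ((c0, r0), 0, w0, 0) :=
    ContinuousAt.comp (g := κ)
      (f := fun x : ((Fin m → K) × Sq D b) × Col D b × Col D b × K => x.1.1) hk
      (continuous_fst.comp continuous_fst).continuousAt
  have h2 : Tendsto (fun x : ((Fin m → K) × Sq D b) × Col D b × Col D b × K =>
      x.2.2.2 / κ x.1.1) (𝓝 ((c0, r0), 0, w0, 0)) (𝓝 0) := by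
    have e : Tendsto (fun x : ((Fin m → K) × Sq D b) × Col D b × Col D b × K =>
      x.2.2.2 / κ x.1.1) (𝓝 ((c0, r0), 0, w0, 0)) (𝓝 (0 / κ c0)) :=
      (cν.div ck hκ).tendsto
    rwa [zero_div] at e
  exact cx.tendsto.prodMk_nhds (c1.tendsto.prodMk_nhds ((ck.smul c2).tendsto.prodMk_nhds h2))

/-- The second family of moves, abstract multiplier. -/
theorem h2_abs (hcont : Continuous (algebraMap K D)) (hc : Chr K W ch)
    (h : Dm W c0 r0 0 w0) {κ : (Fin m → K) → K} (hk : ContinuousAt κ c0) (hκ : κ c0 ≠ 0)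
    {al : (Fin m → K) × Sq D b → Sq D b} (ha : ContinuousAt al (c0, r0))
    (hal : ∀ π, al π = (κ π.1 * star (κ π.1))⁻¹ • π.2ᴴ) {C : (Fin m → K) → E}
    (hC : ∀ᶠ x : ((Fin m → K) × Sq D b) × Col D b × Col D b in 𝓝 ((c0, r0), 0, w0),
        aeval x.1.2 (Pc x.1.1) = 0 →
          FF ch x.1.1 x.1.2 x.2.1 (κ x.1.1 • x.2.2) =
            FF ch x.1.1 x.1.2 x.2.1 x.2.2 + C x.1.1) :
    ∀ᶠ x : ((Fin m → K) × Sq D b) × Col D b × Col D b × K in 𝓝 ((c0, r0), 0, w0, 0),
      aeval x.1.2 (Pc x.1.1) = 0 →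
      FF ch x.1.1 x.1.2 (x.2.1 + x.2.2.2 • x.2.2.1)
        (x.2.2.1 + star x.2.2.2 • (al x.1 * x.2.1)) =
          FF ch x.1.1 x.1.2 x.2.1 x.2.2.1 := by
  have n1 := (t_one (c0 := c0) (r0 := r0) (w0 := w0)).eventually hC
  have n2 := (t_two (w0 := w0) hcont ha).eventually hC
  have n3 := (t_three (r0 := r0) (w0 := w0) hcont hk hκ).eventually
    (h1_near hcont hc (dm_smul h hκ))
  have n4 : ∀ᶠ x : ((Fin m → K) × Sq D b) × Col D b × Col D b × K in
      𝓝 ((c0, r0), 0, w0, 0), κ x.1.1 ≠ 0 := by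
    have ck : ContinuousAt (fun x : ((Fin m → K) × Sq D b) × Col D b × Col D b × K =>
      κ x.1.1) ((c0, r0), 0, w0, 0) :=
    ContinuousAt.comp (g := κ)
      (f := fun x : ((Fin m → K) × Sq D b) × Col D b × Col D b × K => x.1.1) hk
      (continuous_fst.comp continuous_fst).continuousAt
    exact ck.eventually_ne hκ
  filter_upwards [n1, n2, n3, n4] with x n1 n2 n3 n4 hx
  obtain ⟨⟨c, r⟩, w1, w2, ν⟩ := x
  simp only at n1 n2 n3 n4 hx ⊢
  have e1 : (ν / κ c) • (κ c • w2) = ν • w2 := by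
    rw [smul_smul, div_mul_cancel₀ _ n4]
  have n4' : star (κ c) ≠ 0 := by rwa [Ne, star_eq_zero]
  have e2 : κ c • w2 + star (ν / κ c) • (rᴴ * w1) =
      κ c • (w2 + star ν • (al (c, r) * w1)) := by
    rw [smul_add, hal, Matrix.smul_mul, smul_smul, smul_smul]
    congr 2
    rw [star_div₀]
    field_simp
  have n3' := n3 hx
  rw [e1, e2, n1 hx, n2 hx] at n3'
  exact add_right_cancel n3'

end

/-- **Local constancy**, every degree. -/
theorem lc_all [NonarchimedeanAddGroup D] (hcont : Continuous (algebraMap K D))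
    (hspan : ∀ O ∈ 𝓝 (1 : D), (AddSubgroup.closure {x : D | ∃ u ∈ O, u * star u = 1 ∧
      x = u - 1} : Set D) ∈ 𝓝 (0 : D))
    (hK : ∀ O ∈ 𝓝 (0 : K), ∀ S : Finset K, ∃ ν ∈ O, ν ≠ 0 ∧ ν * star ν ∉ S)
    (hst : ∃ x : K, star x ≠ x) (hinf : {x : K | star x = x}.Infinite)
    (hc : Chr K W ch) : ∀ m, LCm K W ch (m + 1) := by
  intro m
  induction m with
  | zero => exact lc_one hcont hspan hK hc
  | succ k ih =>
    intro b c0 r0 w0 hcop h
    obtain ⟨x0, hx0, hu, hv, huv, hN⟩ := H415.ex_x0 hst hinf c0 hcop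
    obtain ⟨C, hC⟩ := comp_near hcont hc ih (lc_one hcont hspan hK hc) hcop h hx0 hu hv huv hN
    refine lc_of_moves hcont hspan hK hc h (alp x0) (cont_alp hcont hu hv huv) ?_
      (h2_abs hcont hc h (H415.cont_kap huv hv) (H415.kap_ne_zero huv hu hv)
        (cont_alp hcont hu hv huv) (fun _ => rfl) hC)
    have hN1 : (kap x0 c0 * star (kap x0 c0))⁻¹ - 1 ≠ 0 := by
      have := H415.kap_ne_one huv hv hN
      intro h0
      exact this (inv_eq_one.mp (sub_eq_zero.mp h0))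
    have e : alp x0 (c0, r0) - r0ᴴ = ((kap x0 c0 * star (kap x0 c0))⁻¹ - 1) • r0ᴴ := by
      rw [alp, sub_smul, one_smul]
    rw [e]
    obtain ⟨v, hv'⟩ := isUnit_conj h.ru
    refine ⟨⟨((kap x0 c0 * star (kap x0 c0))⁻¹ - 1) • (v : Sq D b),
      ((kap x0 c0 * star (kap x0 c0))⁻¹ - 1)⁻¹ • ((v⁻¹ : (Sq D b)ˣ) : Sq D b), ?_, ?_⟩, ?_⟩
    · rw [Matrix.smul_mul, Matrix.mul_smul, smul_smul, mul_inv_cancel₀ hN1, one_smul,
        Units.mul_inv]
    · rw [Matrix.smul_mul, Matrix.mul_smul, smul_smul, inv_mul_cancel₀ hN1, one_smul,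
        Units.inv_mul]
    · show _ • (v : Sq D b) = _
      rw [hv']

end Vale.Agent.P011.H439
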