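import Vale.Agent.P011.H439.State

/-!
**Local constancy, the moves.** The exact identities for the difference of the two values.
-/

open Matrix Polynomial Filter Topology
open Vale.Agent.P011.H95.Odd

set_option linter.unusedSectionVars false

namespace Vale.Agent.P011.H439

variable {K D E : Type*} [Field K] [StarRing K] [DivisionRing D] [StarRing D] [Algebra K D]
  [StarModule K D] [TopologicalSpace D] [AddCommGroup E] {m b : ℕ} {W : Set D} {ch : D → E}

theorem Chr.one_mem (hc : Chr K W ch) : (1 : D) ∈ W := by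
  have := (hc.scal 1 (by simp)).1
  rwa [map_one] at this

theorem Chr.map_one (hc : Chr K W ch) : ch 1 = 0 := by
  have := (hc.scal 1 (by simp)).2
  rwa [_root_.map_one] at this

theorem Chr.unit' (hc : Chr K W ch) {u : D} (hu : u ∈ W) : star u * u = 1 := by
  have h := hc.unit _ (hc.inv u hu)
  rwa [star_star] at h

theorem Chr.map_star (hc : Chr K W ch) {u : D} (hu : u ∈ W) : ch (star u) = -ch u := by
  have h := hc.map u hu (star u) (hc.inv u hu)
  rw [hc.unit u hu, hc.map_one] at h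
  rw [eq_neg_iff_add_eq_zero, add_comm, ← h]

/-- **The move.** -/
theorem FF_move (hc : Chr K W ch) {c : Fin m → K} {r : Sq D b} {w1 w2 : Col D b}
    (h : Dm W c r w1 w2) (ν : K)
    (h' : Dm W c r (w1 + ν • w2) (w2 + star ν • (rᴴ * w1))) :
    FF ch c r (w1 + ν • w2) (w2 + star ν • (rᴴ * w1)) = FF ch c r w1 w2 := by
  have hB := aa_atB h.ann h.cop w1 w2
  have hM := hB.moveM ν
  rw [add_comm (star ν • (rᴴ * w1)) w2] at hM
  have hz : mzM ν r w1 w2 (aa c r w1 w2) = aa c r (w1 + ν • w2) (w2 + star ν • (rᴴ * w1)) :=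
    aa_unique h.ann h.cop hM
  have hzi : Inv2 (mzM ν r w1 w2 (aa c r w1 w2))
      (Ring.inverse (aa c r (w1 + ν • w2) (w2 + star ν • (rᴴ * w1)))) := by
    rw [hz]; exact inv2_of h'.au
  have key := uu_moveM hB (inv2_of h.ru) (inv2_of h.au) ν hzi
  rw [add_comm (star ν • (rᴴ * w1)) w2] at key
  have k0 := congrFun (congrFun key 0) 0
  rw [mul00, mul00] at k0
  have k1 := hc.map _ h'.m2 _ h.m1
  have k2 := hc.map _ h.m2 _ h'.m1
  have k3 : u2 c r (w1 + ν • w2) (w2 + star ν • (rᴴ * w1)) * u1 c r w1 w2 =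
      u2 c r w1 w2 * u1 c r (w1 + ν • w2) (w2 + star ν • (rᴴ * w1)) := k0
  rw [k3, k2] at k1
  rw [FF, FF, sub_eq_sub_iff_add_eq_add, k1, add_comm]

theorem map_mul_right (w : Col D b) (u : D) :
    w.map (· * u) = w * (Matrix.of fun _ _ => u : Matrix (Fin 1) (Fin 1) D) := by
  ext i j
  rw [Subsingleton.elim j 0]
  simp [Matrix.mul_apply]

/-- **Unitary factors on the right of the first column.** -/
theorem FF_unit (hc : Chr K W ch) {c : Fin m → K} {r : Sq D b} {w1 w2 : Col D b}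
    (h : Dm W c r w1 w2) {u : D} (hu : u ∈ W) :
    Dm W c r (w1.map (· * u)) w2 ∧ FF ch c r (w1.map (· * u)) w2 = FF ch c r w1 w2 := by
  rw [map_mul_right]
  set U : Matrix (Fin 1) (Fin 1) D := Matrix.of fun _ _ => u with hU
  have hU1 : U * Uᴴ = 1 := by
    refine eq00 ?_
    rw [mul00, star00, Matrix.one_apply_eq]
    exact hc.unit u hu
  have hU2 : Uᴴ * U = 1 := by
    refine eq00 ?_
    rw [mul00, star00, Matrix.one_apply_eq]
    exact hc.unit' hu
  have hB := (aa_atB h.ann h.cop w1 w2).mul_right (u := U) (v := 1) hU1 (by simp)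
  rw [Matrix.mul_one] at hB
  have ha := aa_unique h.ann h.cop hB
  have e1 : u1 c r (w1 * U) w2 = star u * u1 c r w1 w2 * u := by
    rw [u1, ← ha, uu_mul_right hU2, mul00, mul00, star00]
    rfl
  have e2 : u2 c r (w1 * U) w2 = u2 c r w1 w2 := by
    rw [u2, ← ha]; rfl
  have hm : star u * u1 c r w1 w2 ∈ W := hc.mul _ (hc.inv u hu) _ h.m1
  refine ⟨⟨h.ann, h.cop, h.ru, ?_, ?_, ?_⟩, ?_⟩
  · rw [← ha]; exact h.au
  · rw [e1]; exact hc.mul _ hm _ hu
  · rw [e2]; exact h.m2
  · rw [FF, FF, e1, e2, hc.map _ hm _ hu, hc.map _ (hc.inv u hu) _ h.m1, hc.map_star hu]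
    abel

/-- **Left factors which commute with `rᴴ`.** -/
theorem Dm.mul_left {c : Fin m → K} {r : Sq D b} {w1 w2 : Col D b} (h : Dm W c r w1 w2)
    {g : Sq D b} (hg : IsUnit g) (hr : g * rᴴ = rᴴ * g) :
    Dm W c r (g * w1) (g * w2) ∧
      FF ch c r (g * w1) (g * w2) = FF ch c r w1 w2 := by
  have hgi := inv2_of hg
  set gi := Ring.inverse g with hgid
  have hr1 : r * gᴴ = gᴴ * r := by
    have := congrArg conjTranspose hr
    simpa only [conjTranspose_mul, conjTranspose_conjTranspose] using this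
  have hr2 : gᴴ * r * giᴴ = r := by
    rw [← hr1, Matrix.mul_assoc, hgi.conj.mul, Matrix.mul_one]
  have hB := aa_atB h.ann h.cop w1 w2
  have hB' : AtB (gᴴ * r * giᴴ) w1 w2 (aa c r w1 w2) := by rwa [hr2]
  have hM := AtB.mul_left hgi hB'
  have hai := inv2_of h.au
  have hri := inv2_of h.ru
  set ai := Ring.inverse (aa c r w1 w2) with haid
  set ri := Ring.inverse r with hrid
  have hinv := inv2_mul_left hgi hai
  have hr3 : ri * giᴴ = giᴴ * ri := by
    have e : Inv2 (gᴴ * r) (ri * giᴴ) := hgi.conj.mul' hri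
    have e' : Inv2 (gᴴ * r) (giᴴ * ri) := by rw [← hr1]; exact hri.mul' hgi.conj
    exact e.unique e'
  have e1 : u1 c r (g * w1) (g * w2) = u1 c r w1 w2 := by
    rw [u1_eq h.ann h.cop hM hinv, uu_mul_left hgi]
    rfl
  have e2 : u2 c r (g * w1) (g * w2) = u2 c r w1 w2 := by
    rw [u2_eq h.ann h.cop hM hinv hri]
    have : ri * (giᴴ * ai * gi) = giᴴ * (ri * ai) * gi := by
      rw [← Matrix.mul_assoc, ← Matrix.mul_assoc, hr3]
      simp only [Matrix.mul_assoc]
    rw [this, uu_mul_left hgi]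
    rfl
  refine ⟨⟨h.ann, h.cop, h.ru, ?_, ?_, ?_⟩, ?_⟩
  · rw [← aa_unique h.ann h.cop hM]; exact isUnit_of_inv2 hinv
  · rw [e1]; exact h.m1
  · rw [e2]; exact h.m2
  · rw [FF, FF, e1, e2]

theorem conj_smul_one (κ : K) : ((κ • 1 : Sq D b))ᴴ = star κ • 1 := by
  rw [conjTranspose_smul, conjTranspose_one]

/-- **Conjugate scalars.** -/
theorem FF_conj (hc : Chr K W ch) {c : Fin m → K} {κ : K} {w1 w2 : Col D b}
    (h : Dm W c (κ • 1 : Sq D b) w1 w2) :
    Dm W (sc c) (star κ • 1 : Sq D b) w1 w2 ∧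
      FF ch (sc c) (star κ • 1 : Sq D b) w1 w2 = -FF ch c (κ • 1 : Sq D b) w1 w2 := by
  have hB := aa_atB h.ann h.cop w1 w2
  have hai := inv2_of h.au
  have hri := inv2_of h.ru
  set a := aa c (κ • 1 : Sq D b) w1 w2 with had
  have hann : aeval (star κ • 1 : Sq D b) (Pc (sc c)) = 0 := by
    rw [← conj_smul_one, aeval_conj, h.ann, conjTranspose_zero]
  have hcop : IsUnit (aeval (star κ • 1 : Sq D b) (Pc (sc (sc c)))) := by
    rw [← conj_smul_one, aeval_conj]; exact isUnit_conj h.cop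
  have hM : AtB (star κ • 1 : Sq D b) w1 w2 aᴴ := by
    refine ⟨?_, ?_⟩
    · rw [conjTranspose_conjTranspose, add_comm]; exact hB.one
    · have h2 := hB.two
      rw [conj_smul_one] at h2
      rw [conj_smul_one, star_star, conjTranspose_conjTranspose, ← h2]
      simp only [Matrix.mul_smul, Matrix.smul_mul, Matrix.mul_one, Matrix.one_mul]
      abel
  have hri' : Inv2 (star κ • 1 : Sq D b) (Ring.inverse (κ • 1 : Sq D b))ᴴ := by
    rw [← conj_smul_one]; exact hri.conj
  have hcomm : Ring.inverse (κ • 1 : Sq D b) * Ring.inverse a =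
      Ring.inverse a * Ring.inverse (κ • 1 : Sq D b) := by
    have e : Inv2 (a * (κ • 1 : Sq D b)) (Ring.inverse (κ • 1 : Sq D b) * Ring.inverse a) :=
      hai.mul' hri
    have e' : Inv2 (a * (κ • 1 : Sq D b)) (Ring.inverse a * Ring.inverse (κ • 1 : Sq D b)) := by
      have : a * (κ • 1 : Sq D b) = (κ • 1 : Sq D b) * a := by
        simp only [Matrix.mul_smul, Matrix.smul_mul, Matrix.mul_one, Matrix.one_mul]
      rw [this]; exact hri.mul' hai
    exact e.unique e'
  have e1 : u1 (sc c) (star κ • 1 : Sq D b) w1 w2 = star (u1 c (κ • 1 : Sq D b) w1 w2) := by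
    rw [u1_eq hann hcop hM hai.conj, ← conj_uu, star00]
    rfl
  have e2 : u2 (sc c) (star κ • 1 : Sq D b) w1 w2 = star (u2 c (κ • 1 : Sq D b) w1 w2) := by
    rw [u2_eq hann hcop hM hai.conj hri', ← conjTranspose_mul, ← hcomm, ← conj_uu, star00]
    rfl
  refine ⟨⟨hann, hcop, isUnit_of_inv2 hri', ?_, ?_, ?_⟩, ?_⟩
  · rw [← aa_unique hann hcop hM]; exact isUnit_of_inv2 hai.conj
  · rw [e1]; exact hc.inv _ h.m1
  · rw [e2]; exact hc.inv _ h.m2
  · rw [FF, FF, e1, e2, hc.map_star h.m1, hc.map_star h.m2]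
    abel

end Vale.Agent.P011.H439
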