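import Vale.Agent.P011.H439.Moves

/-!
**Local constancy.** Continuity of the data and the domain near a point.
-/

open Matrix Polynomial Filter Topology
open Vale.Agent.P011.H95.Odd

set_option linter.unusedSectionVars false

namespace Vale.Agent.P011.H439

variable {K D E : Type*} [Field K] [StarRing K] [DivisionRing D] [StarRing D] [Algebra K D]
  [StarModule K D] [TopologicalSpace K] [IsTopologicalRing K] [ContinuousStar K]
  [TopologicalSpace D] [IsTopologicalDivisionRing D] [ContinuousStar D] [T1Space D]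
  [AddCommGroup E] {m b j : ℕ} {W : Set D} {ch : D → E}

theorem contSMul (hcont : Continuous (algebraMap K D)) : ContinuousSMul K D := ⟨by
  have : (fun p : K × D => p.1 • p.2) = fun p : K × D => algebraMap K D p.1 * p.2 := by
    funext p; exact Algebra.smul_def _ _
  rw [this]
  exact (hcont.comp continuous_fst).mul continuous_snd⟩

theorem cont_aeval (hcont : Continuous (algebraMap K D)) {X : Type*} [TopologicalSpace X]
    {x : X} {R : X → Sq D b} {G : X → Fin m → K} (hR : ContinuousAt R x)
    (hG : ContinuousAt G x) : ContinuousAt (fun y => aeval (R y) (Pc (G y))) x := by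
  have := contSMul hcont
  simp only [aeval_Pc]
  refine (hR.pow m).add ?_
  refine tendsto_finsetSum _ fun i _ => ?_
  exact ((continuousAt_pi.mp hG i).smul (hR.pow _))

theorem cont_sc : Continuous (sc (K := K) (m := m)) := by
  unfold sc; fun_prop

theorem cont_inv {X : Type*} [TopologicalSpace X] {x : X} {R : X → Sq D b}
    (hR : ContinuousAt R x) (hu : IsUnit (R x)) :
    ContinuousAt (fun y => Ring.inverse (R y)) x :=
  ContinuousAt.comp (f := R) (Vale.Agent.P011.H341.Odd.inv_cont _ hu).2 hR

theorem cont_aa (hcont : Continuous (algebraMap K D)) {c0 : Fin m → K}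
    {r0 : Sq D b} (h : IsUnit (aeval r0 (Pc (sc c0)))) (w1 w2 : Col D b) :
    ContinuousAt (fun x : ((Fin m → K) × Sq D b) × Col D b × Col D b =>
      aa x.1.1 x.1.2 x.2.1 x.2.2) ((c0, r0), w1, w2) := by
  have := contSMul hcont
  have h1 : ContinuousAt (fun x : ((Fin m → K) × Sq D b) × Col D b × Col D b =>
      Ring.inverse (aeval x.1.2 (Pc (sc x.1.1)))) ((c0, r0), w1, w2) := by
    refine cont_inv (cont_aeval hcont ?_ ?_) h
    · fun_prop
    · exact (cont_sc.comp (continuous_fst.comp continuous_fst)).continuousAt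
  have h2 : ∀ n : ℕ, Continuous fun x : ((Fin m → K) × Sq D b) × Col D b × Col D b =>
      sylT n x.1.2ᴴ (x.2.2 * x.2.2ᴴ - x.1.2ᴴ * (x.2.1 * x.2.1ᴴ)) x.1.2 := by
    intro n
    unfold sylT
    refine continuous_finsetSum _ fun i _ => ?_
    fun_prop
  have h3 : Continuous fun x : ((Fin m → K) × Sq D b) × Col D b × Col D b =>
      sylP (sc x.1.1) x.1.2ᴴ (x.2.2 * x.2.2ᴴ - x.1.2ᴴ * (x.2.1 * x.2.1ᴴ)) x.1.2 := by
    unfold sylP
    refine (h2 m).add ?_
    refine continuous_finsetSum _ fun i _ => ?_
    have h4 : Continuous fun x : ((Fin m → K) × Sq D b) × Col D b × Col D b => sc x.1.1 i :=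
      (continuous_apply i).comp (cont_sc.comp (continuous_fst.comp continuous_fst))
    exact h4.smul (h2 _)
  unfold aa syl
  exact Vale.Agent.P011.H341.Odd.cmul h3.continuousAt h1


theorem Chr.mem_near (hc : Chr K W ch) {u0 : D} (hu : u0 ∈ W) :
    ∀ᶠ x in 𝓝 u0, x * star x = 1 → x ∈ W := by
  have t : Tendsto (fun x : D => x * star u0) (𝓝 u0) (𝓝 1) := by
    have : Continuous fun x : D => x * star u0 := by fun_prop
    have h := this.tendsto u0
    rwa [hc.unit u0 hu] at h
  filter_upwards [t.eventually hc.near] with x hx hxx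
  have h1 : star u0 * u0 = 1 := hc.unit' hu
  have h2 : (x * star u0) * star (x * star u0) = 1 := by
    rw [star_mul, star_star, mul_assoc, ← mul_assoc (star u0), h1, one_mul, hxx]
  have h3 := hc.mul _ (hx h2) _ hu
  rwa [mul_assoc, h1, mul_one] at h3

/-- **The domain is relatively open.** -/
theorem dm_near (hcont : Continuous (algebraMap K D)) (hc : Chr K W ch) {c0 : Fin m → K}
    {r0 : Sq D b} {w1 w2 : Col D b} (h : Dm W c0 r0 w1 w2) :
    ∀ᶠ x : ((Fin m → K) × Sq D b) × Col D b × Col D b in 𝓝 ((c0, r0), w1, w2),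
      aeval x.1.2 (Pc x.1.1) = 0 → Dm W x.1.1 x.1.2 x.2.1 x.2.2 := by
  have cr : ContinuousAt (fun x : ((Fin m → K) × Sq D b) × Col D b × Col D b => x.1.2)
      ((c0, r0), w1, w2) := by fun_prop
  have cc : ContinuousAt (fun x : ((Fin m → K) × Sq D b) × Col D b × Col D b => sc x.1.1)
      ((c0, r0), w1, w2) := (cont_sc.comp (continuous_fst.comp continuous_fst)).continuousAt
  have cp := cont_aeval hcont cr cc
  have ca := cont_aa hcont h.cop w1 w2
  have cai := cont_inv ca h.au
  have cri := cont_inv cr h.ru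
  have hp := cp.eventually (Vale.Agent.P011.H341.Odd.inv_cont _ h.cop).1
  have hr := cr.eventually (Vale.Agent.P011.H341.Odd.inv_cont _ h.ru).1
  have ha := ca.eventually (Vale.Agent.P011.H341.Odd.inv_cont _ h.au).1
  have e00 : Continuous fun M : Matrix (Fin 1) (Fin 1) D => M 0 0 := by fun_prop
  have c1 : ContinuousAt (fun x : ((Fin m → K) × Sq D b) × Col D b × Col D b =>
      u1 x.1.1 x.1.2 x.2.1 x.2.2) ((c0, r0), w1, w2) := by
    unfold u1 uu
    refine e00.continuousAt.comp (ContinuousAt.sub continuousAt_const ?_)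
    refine Vale.Agent.P011.H341.Odd.cmul (Vale.Agent.P011.H341.Odd.cmul ?_ cai) ?_
    · fun_prop
    · fun_prop
  have c2 : ContinuousAt (fun x : ((Fin m → K) × Sq D b) × Col D b × Col D b =>
      u2 x.1.1 x.1.2 x.2.1 x.2.2) ((c0, r0), w1, w2) := by
    unfold u2 uu
    refine e00.continuousAt.comp (ContinuousAt.sub continuousAt_const ?_)
    refine Vale.Agent.P011.H341.Odd.cmul (Vale.Agent.P011.H341.Odd.cmul ?_
      (Vale.Agent.P011.H341.Odd.cmul cri cai)) ?_
    · fun_prop
    · fun_prop
  have n1 := c1.eventually (hc.mem_near h.m1)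
  have n2 := c2.eventually (hc.mem_near h.m2)
  filter_upwards [hp, hr, ha, n1, n2] with x hp hr ha n1 n2 hx
  exact ⟨hx, hp, hr, ha, n1 (u1_unit hx hp ha), n2 (u2_unit hx hp hr ha)⟩

end Vale.Agent.P011.H439
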