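import Vale.Agent.P011.H439.Ex
import Vale.Agent.P011.H415.Kap
import Vale.Agent.P011.H640.RedT

/-!
**Local constancy.** The step of the induction on the degree, and the theorem.
-/

open Matrix Polynomial Filter Topology
open Vale.Agent.P011.H415 (uu vv red kap)

set_option linter.unusedSectionVars false

namespace Vale.Agent.P011.H439

variable {K D E : Type*} [Field K] [StarRing K] [DivisionRing D] [StarRing D] [Algebra K D]
  [StarModule K D] [TopologicalSpace K] [IsTopologicalDivisionRing K] [ContinuousStar K]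
  [T1Space K] [TopologicalSpace D] [IsTopologicalDivisionRing D] [ContinuousStar D] [T1Space D]
  [AddCommGroup E] {m b k : ℕ} {W : Set D} {ch : D → E}

theorem cop_lin {x0 : K} (hx0 : star x0 ≠ x0) :
    IsCoprime (Pc fun _ : Fin 1 => -x0) (Pc (sc fun _ : Fin 1 => -x0)) := by
  rw [H415.sc_lin, H415.pc_lin, H415.pc_lin]
  exact isCoprime_X_sub_C_of_isUnit_sub (sub_ne_zero.mpr hx0.symm).isUnit

/-- the conjugate reduced polynomial is invertible too -/
theorem units_conj {x0 : K} {c : Fin (m + 1) → K} {r : Sq D b} (hann : aeval r (Pc c) = 0)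
    (huv : uu x0 c ≠ vv x0 c) (hu : uu x0 c ≠ 0) (hcop : IsCoprime (Pc c) (Pc (sc c))) :
    IsUnit (aeval rᴴ (Pc (sc (red x0 c)))) ∧
      IsUnit (aeval rᴴ (Pc (sc fun _ : Fin 1 => -x0))) := by
  have hann' : aeval rᴴ (Pc (sc c)) = 0 := by rw [aeval_conj, hann, conjTranspose_zero]
  constructor
  · refine H415.unit_of_cop ?_ hann'
    have h1 := H415.red_cop_left huv hu hcop
    have h2 : IsCoprime ((Pc (red x0 c)).map (starRingEnd K)) ((Pc c).map (starRingEnd K)) :=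
      h1.map (Polynomial.mapRingHom (starRingEnd K))
    have e1 : (Pc (red x0 c)).map (starRingEnd K) = Pc (sc (red x0 c)) := H415.map_Pc _
    have e2 : (Pc c).map (starRingEnd K) = Pc (sc c) := H415.map_Pc _
    rwa [e1, e2] at h2
  · refine H415.unit_of_cop ?_ hann'
    rw [H415.sc_lin, H415.pc_lin, (irreducible_X_sub_C (star x0)).coprime_iff_not_dvd,
      dvd_iff_isRoot]
    intro h
    have h1 : (H415.Pc (H415.sc c)).eval (star x0) = 0 := h
    rw [← H415.star_eval] at h1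
    exact hu (by rwa [star_eq_zero] at h1)

/-- **The composite exchange.** -/
theorem comp_near (hcont : Continuous (algebraMap K D)) (hc : Chr K W ch)
    (hLC : LCm K W ch (k + 1)) (hL1 : LCm K W ch 1) {c0 : Fin (k + 1 + 1) → K} {r0 : Sq D b}
    {w0 : Col D b} (hcop : IsCoprime (Pc c0) (Pc (sc c0))) (h : Dm W c0 r0 0 w0) {x0 : K}
    (hx0 : star x0 ≠ x0) (hu : uu x0 c0 ≠ 0) (hv : vv x0 c0 ≠ 0) (huv : uu x0 c0 ≠ vv x0 c0)
    (hN : uu x0 c0 * star (uu x0 c0) ≠ vv x0 c0 * star (vv x0 c0)) :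
    ∃ C : (Fin (k + 1 + 1) → K) → E,
      ∀ᶠ x : ((Fin (k + 1 + 1) → K) × Sq D b) × Col D b × Col D b in 𝓝 ((c0, r0), 0, w0),
        aeval x.1.2 (Pc x.1.1) = 0 →
          FF ch x.1.1 x.1.2 x.2.1 (kap x0 x.1.1 • x.2.2) =
            FF ch x.1.1 x.1.2 x.2.1 x.2.2 + C x.1.1 := by
  -- the reduced polynomial
  have cr : ContinuousAt (red (m := k + 1) x0) c0 := H415.cont_red huv
  have cop1 : IsCoprime (Pc (red x0 c0)) (Pc (sc (red x0 c0))) := H415.red_cop huv hN hcop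
  have cop1' : ∀ᶠ c in 𝓝 c0, IsCoprime (Pc (red x0 c)) (Pc (sc (red x0 c))) :=
    cr.eventually (H640.cop_near cop1)
  obtain ⟨v1, v2⟩ := H415.units_col (r := r0) h.ann huv hv hcop
  obtain ⟨v1', v2'⟩ := units_conj (r := r0) h.ann huv hu hcop
  obtain ⟨C1, hC1⟩ := ex_near hcont hc hLC h (red x0) cr cop1' v1 v1'
  -- the linear polynomial
  have hb := chi_base h v1 v1'
  obtain ⟨C2, hC2⟩ := ex_near hcont hc hL1 hb (fun _ => fun _ : Fin 1 => -x0)
    continuousAt_const (Eventually.of_forall fun _ => cop_lin hx0) v2 v2'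
  refine ⟨fun c => C1 c + C2 c, ?_⟩
  have cx : ContinuousAt (fun x : ((Fin (k + 1 + 1) → K) × Sq D b) × Col D b × Col D b => x.1)
      ((c0, r0), 0, w0) := by fun_prop
  have cw : ContinuousAt (fun x : ((Fin (k + 1 + 1) → K) × Sq D b) × Col D b × Col D b => x.2.2)
      ((c0, r0), 0, w0) := by fun_prop
  have cw1 : ContinuousAt (fun x : ((Fin (k + 1 + 1) → K) × Sq D b) × Col D b × Col D b =>
      x.2.1) ((c0, r0), 0, w0) := by fun_prop
  have T : Tendsto (fun x : ((Fin (k + 1 + 1) → K) × Sq D b) × Col D b × Col D b =>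
      (x.1, x.2.1, chi (red x0 x.1.1) x.1.2 * x.2.2)) (𝓝 ((c0, r0), 0, w0))
      (𝓝 ((c0, r0), 0, chi (red x0 c0) r0 * w0)) :=
    (cx.prodMk (cw1.prodMk (H341.Odd.cmul (cont_chi (w0 := w0) hcont cr v1) cw))).tendsto
  have hC2' : ∀ᶠ x : ((Fin (k + 1 + 1) → K) × Sq D b) × Col D b × Col D b in
      𝓝 ((c0, r0), 0, w0), aeval x.1.2 (Pc x.1.1) = 0 →
        FF ch x.1.1 x.1.2 x.2.1 (chi (fun _ : Fin 1 => -x0) x.1.2 *
          (chi (red x0 x.1.1) x.1.2 * x.2.2)) =
        FF ch x.1.1 x.1.2 x.2.1 (chi (red x0 x.1.1) x.1.2 * x.2.2) + C2 x.1.1 :=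
    T.eventually hC2
  have hop := near_cop (r0 := r0) (w0 := w0) (H415.ev_pt huv hu hv hN)
  have hcp := near_cop (r0 := r0) (w0 := w0) (H640.cop_near hcop)
  filter_upwards [hC1, hC2', hop, hcp] with x h1 h2 h3 h4 hx
  obtain ⟨g1, g2⟩ := H415.units_col (r := x.1.2) hx h3.1 h3.2.2.1 h4
  have e : chi (fun _ : Fin 1 => -x0) x.1.2 * (chi (red x0 x.1.1) x.1.2 * x.2.2) =
      kap x0 x.1.1 • x.2.2 := by
    have := H415.kappa1_col' (r := x.1.2) hx h3.1 h3.2.2.1 g1 g2 x.2.2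
    rw [← this]
    unfold chi
    simp only [Matrix.mul_assoc]
  rw [← e, h2 hx, h1 hx, add_assoc]

end Vale.Agent.P011.H439
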